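import Vale.Agent.P263.ST.Done

/-!
# P263: Curtis's conjecture

* For every `d > 0` the image of the mod 2 Hurewicz map `h_d : π_d(Q₀S⁰) → H_d(Q₀S⁰; 𝔽₂)` is the
  span `V_d` of the classes `h_d(g)`, where `g` is one of `±η`, `±ν`, `±σ` (the stable classes of
  the Hopf maps) or has Kervaire invariant one.
* If `h_d(g) ≠ 0`, then either `d = 1`, `3` or `7` and `g` does not have Adams filtration at least
  two, or `g` has Kervaire invariant one.
* The image of `h_d` has at most one non-zero element.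
* `η`, `ν`, `σ` exist, and `h_d` is not zero on them.
* Every based map `g : Sᵈ → Q₀S⁰` is represented by a map `S^{d+n} → Sⁿ`.
-/

namespace Vale.Agent.Results.P263.CurtisConjecture

open Vale.Agent.P263.ST CategoryTheory

theorem result :
    (∀ d : ℕ, 0 < d → Set.range (hur (d := d)) = VLit d) ∧
    (∀ (d : ℕ) (g : BMap d), 0 < d → hur g ≠ 0 →
      ((d = 1 ∨ d = 3 ∨ d = 7) ∧ ¬ AF2 g) ∨ KervOne g) ∧
    (∀ (d : ℕ) (g g' : BMap d), 0 < d → hur g ≠ 0 → hur g' ≠ 0 → hur g = hur g') ∧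
    (∀ d : ℕ, d = 1 ∨ d = 3 ∨ d = 7 → ∃ g : BMap d, IsHopf g) ∧
    (∀ (d : ℕ) (g : BMap d), IsHopf g → (d = 1 ∨ d = 3 ∨ d = 7) ∧ hur g ≠ 0) ∧
    (∀ (d : ℕ) (g : BMap d), 0 < d → ∃ (n : ℕ) (F : Sph (d + n) ⟶ Sph n), Rep g F) :=
  ⟨curtisLit, curtisElt, hurUnique, fun _ => exists_isHopf,
    fun _ _ h => ⟨(IsHopf.hopfOne h).1, h.hur_ne⟩,
    fun _ g hd => (exists_rep hd g 0).imp fun _ h => h.2⟩

end Vale.Agent.Results.P263.CurtisConjecture
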